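import Vale.Agent.P181.MD.Spec
import Vale.Agent.P181.TL.Defs
import Vale.Agent.P181.PL.Defs

set_option autoImplicit false

/-!
# P181, MN: a long third row near the diagonal, `b ≥ (1 + ε) a`: the literals

The orbit inequality `MD.MatM` for `Sym^b Sym^a`, the upper bound `TL.UpB` for `Sym^a Sym^b` (it
contains the factor `1 / a!`), and Weyl's product formula for the first two rows.
-/

namespace Vale.Agent.P181.MN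

open Vale.Agent.P181.H280 (plethMult)
open Vale.Agent.P181.H463 (gt)
open Vale.Agent.P181.T4 (ex)

/-- **(N1)** removal of the first row (Weyl's product formula `H19.gt_prod`). -/
def RowG : Prop := ∀ (n N m g x : ℕ) (mu : Fin n → ℕ), n ≤ N → m ≤ n → Antitone mu →
  (∀ i, mu i ≤ x) → ex mu m + g ≤ x →
  g ^ (N - m) * gt n N mu ≤ N.factorial * gt (n + 1) (N + 1) (Fin.cons x mu)

/-- **(N2)** the numbers. -/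
def NumN : Prop := ∀ ε : ℝ, 0 < ε → ∃ K a₀ : ℕ, 20 ≤ K ∧ ∀ a b m g : ℕ, a₀ ≤ a →
  (1 + ε) * a ≤ b → b ^ K ≤ a ^ (K + 1) → 3 ≤ m → m ^ 20 ≤ b → a ^ (2 * K - 1) ≤ g ^ K →
  ((a + b).choose a : ℝ) * 2 ^ ((m - 2) * a) * ((b - 1).factorial * (b - 2).factorial) *
    (((a * b + b - 1).choose (b - 1) : ℝ) * b.factorial) ≤
    (g : ℝ) ^ (2 * (b - m)) * (1 + (g : ℝ) / ((b - 2 : ℕ) : ℝ)) ^ ((m - 2) * ((b - 2) - a))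

/-- **(N3)** a gap `2 g` below row `m ≥ 3` (from `RowG`, `NumN`, `MD.MatM`, `MD.DesM`,
`MD.RemStmt`, `TL.UpB`). -/
def LBN : Prop := ∀ ε : ℝ, 0 < ε → ∃ K a₀ : ℕ, 20 ≤ K ∧
  ∀ (a b k m g : ℕ) (lam : Fin (k + 2) → ℕ),
  a₀ ≤ a → (1 + ε) * a ≤ b → b ^ K ≤ a ^ (K + 1) → k + 2 ≤ a → Antitone lam →
  ∑ i, lam i = a * b → 3 ≤ m → m ≤ k + 2 → m ^ 20 ≤ b → a ^ (2 * K - 1) ≤ g ^ K →
  (∀ i : Fin (k + 2), (i : ℕ) < m → ex lam m + 2 * g ≤ lam i) →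
  plethMult a b (k + 2) lam ≤ plethMult b a (k + 2) lam

/-- **(N4)** the first long gap below row three. -/
def GapN : Prop := ∀ K : ℕ, 20 ≤ K → ∃ (δ : ℝ) (a₀ : ℕ), 0 < δ ∧
  ∀ (a b n : ℕ) (lam : Fin n → ℕ), a₀ ≤ a → a ≤ b → (b : ℝ) ≤ (a : ℝ) ^ (1 + δ) → n ≤ a →
  Antitone lam → ∑ i, lam i = a * b → (a : ℝ) ^ (2 - δ) ≤ ex lam 2 →
  b ^ K ≤ a ^ (K + 1) ∧ ∃ m g : ℕ, 3 ≤ m ∧ m ≤ n ∧ m ^ 20 ≤ b ∧ a ^ (2 * K - 1) ≤ g ^ K ∧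
    ∀ i : Fin n, (i : ℕ) < m → ex lam m + 2 * g ≤ lam i

/-- **(N5)** the theorem (from `LBN`, `GapN`, `PL.PolyS`): a long third row, `b ≥ (1 + ε) a`. -/
def NearLong : Prop := ∀ ε : ℝ, 0 < ε → ∃ (δ : ℝ) (a₀ : ℕ), 0 < δ ∧
  ∀ (a b n : ℕ) (lam : Fin n → ℕ), a₀ ≤ a → (1 + ε) * a ≤ b →
  (a : ℝ) ^ (2 - δ) ≤ ex lam 2 → plethMult a b n lam ≤ plethMult b a n lam

end Vale.Agent.P181.MN
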